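import Mathlib

namespace Vale.Agent.Lib.P036

lemma sum_two_step (x : ℕ → ℝ) (N : ℕ) :
    ∑ i ∈ Finset.range N, (x (i + 2) - x i) = x (N + 1) + x N - x 1 - x 0 := by
  induction N with
  | zero => simp
  | succ n ih => rw [Finset.sum_range_succ, ih]; ring

lemma exists_small_box (x y : ℕ → ℝ) (N : ℕ) (hN : 0 < N)
    (hx : Monotone x) (hy : Monotone y)
    (hx0 : 0 ≤ x 0) (hx1 : ∀ n, x n ≤ 1) (hy0 : 0 ≤ y 0) (hy1 : ∀ n, y n ≤ 1) :
    ∃ i, i < N ∧ (x (i + 2) - x i) * (y (i + 2) - y i) ≤ 4 / (N : ℝ) ^ 2 := by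
  by_contra hcon
  push Not at hcon
  have hNpos : (0 : ℝ) < N := by exact_mod_cast hN
  have key : ∀ i ∈ Finset.range N,
      4 / (N : ℝ) < (x (i + 2) - x i) + (y (i + 2) - y i) := by
    intro i hi
    have h1 := hcon i (Finset.mem_range.mp hi)
    have hA : 0 ≤ x (i + 2) - x i := sub_nonneg.mpr (hx (by omega))
    have hB : 0 ≤ y (i + 2) - y i := sub_nonneg.mpr (hy (by omega))
    by_contra hle
    push Not at hle
    have h2 : ((x (i + 2) - x i) + (y (i + 2) - y i)) ^ 2 ≤ (4 / (N : ℝ)) ^ 2 :=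
      pow_le_pow_left₀ (by positivity) hle 2
    have h3 : 4 * ((x (i + 2) - x i) * (y (i + 2) - y i))
        ≤ ((x (i + 2) - x i) + (y (i + 2) - y i)) ^ 2 := by
      nlinarith [sq_nonneg ((x (i + 2) - x i) - (y (i + 2) - y i))]
    have h4 : (4 / (N : ℝ)) ^ 2 = 4 * (4 / (N : ℝ) ^ 2) := by ring
    linarith
  have hne : (Finset.range N).Nonempty := by
    rw [Finset.nonempty_range_iff]; exact hN.ne'
  have hsum := Finset.sum_lt_sum_of_nonempty hne key
  rw [Finset.sum_add_distrib, sum_two_step, sum_two_step, Finset.sum_const, Finset.card_range,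
    nsmul_eq_mul] at hsum
  have h5 : (N : ℝ) * (4 / N) = 4 := by field_simp
  have hx0' := hx (Nat.zero_le 1)
  have hy0' := hy (Nat.zero_le 1)
  linarith [hx1 (N + 1), hx1 N, hy1 (N + 1), hy1 N]

lemma det_le_box {a b A B : ℝ} (ha : 0 ≤ a) (haA : a ≤ A) (hb : 0 ≤ b) (hbB : b ≤ B) :
    |a * B - A * b| ≤ A * B := by
  have hA : 0 ≤ A := ha.trans haA
  have hB : 0 ≤ B := hb.trans hbB
  rw [abs_le]
  constructor
  · nlinarith [mul_nonneg ha hB, mul_le_mul_of_nonneg_left hbB hA]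
  · nlinarith [mul_nonneg hA hb, mul_le_mul_of_nonneg_right haA hB]

/-- A finite chain for the product order inside the unit square with at least three points
contains a triangle of area at most `2 / (m - 2) ^ 2`. -/
lemma chain_small_triangle (S : Finset (ℝ × ℝ))
    (hS : ∀ p ∈ S, 0 ≤ p.1 ∧ p.1 ≤ 1 ∧ 0 ≤ p.2 ∧ p.2 ≤ 1)
    (hch : IsChain (· ≤ ·) (S : Set (ℝ × ℝ))) (hm : 3 ≤ S.card) :
    ∃ p ∈ S, ∃ q ∈ S, ∃ r ∈ S, p ≠ q ∧ q ≠ r ∧ p ≠ r ∧
      |(q.1 - p.1) * (r.2 - p.2) - (r.1 - p.1) * (q.2 - p.2)| / 2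
        ≤ 2 / ((S.card : ℝ) - 2) ^ 2 := by
  classical
  set f : ℝ × ℝ → ℝ := fun p => p.1 + p.2 with hf
  -- comparison of keys gives comparison of points
  have hlt : ∀ p ∈ S, ∀ q ∈ S, f p < f q → p ≤ q := by
    intro p hp q hq hpq
    by_cases hne : p = q
    · exact hne.le
    · rcases hch hp hq hne with h | h
      · exact h
      · exfalso
        have h1 : q.1 ≤ p.1 := h.1
        have h2 : q.2 ≤ p.2 := h.2
        simp only [hf] at hpq
        linarith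
  have hinj : Set.InjOn f (S : Set (ℝ × ℝ)) := by
    intro p hp q hq hpq
    by_contra hne
    rcases hch hp hq hne with h | h
    · have h1 : p.1 ≤ q.1 := h.1
      have h2 : p.2 ≤ q.2 := h.2
      simp only [hf] at hpq
      exact hne (Prod.ext (by linarith) (by linarith))
    · have h1 : q.1 ≤ p.1 := h.1
      have h2 : q.2 ≤ p.2 := h.2
      simp only [hf] at hpq
      exact hne (Prod.ext (by linarith) (by linarith))
  set m := S.card with hmdef
  have hT : (S.image f).card = m := Finset.card_image_of_injOn hinj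
  set e := (S.image f).orderEmbOfFin hT with he
  have hex : ∀ i : Fin m, ∃ p ∈ S, f p = e i := by
    intro i
    have := Finset.orderEmbOfFin_mem (S.image f) hT i
    rcases Finset.mem_image.mp this with ⟨p, hp, hpe⟩
    exact ⟨p, hp, hpe⟩
  choose g hgS hgf using hex
  have hidx : ∀ n : ℕ, min n (m - 1) < m := fun n => by omega
  set G : ℕ → ℝ × ℝ := fun n => g ⟨min n (m - 1), hidx n⟩ with hG
  have hGS : ∀ n, G n ∈ S := fun n => hgS _
  have hGmono : Monotone G := by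
    intro a b hab
    have h1 : min a (m - 1) ≤ min b (m - 1) := min_le_min_right _ hab
    rcases h1.lt_or_eq with h2 | h2
    · apply hlt _ (hGS a) _ (hGS b)
      simp only [hG, hgf]
      exact e.strictMono (by simpa using h2)
    · simp only [hG, h2]; exact le_rfl
  have hN : 0 < m - 2 := by omega
  obtain ⟨i, hi, hbox⟩ := exists_small_box (fun n => (G n).1) (fun n => (G n).2) (m - 2) hN
    (fun a b hab => (hGmono hab).1) (fun a b hab => (hGmono hab).2)
    (hS _ (hGS 0)).1 (fun n => (hS _ (hGS n)).2.1) (hS _ (hGS 0)).2.2.1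
    (fun n => (hS _ (hGS n)).2.2.2)
  have hstrict : ∀ a b : ℕ, a < b → b ≤ m - 1 → f (G a) < f (G b) := by
    intro a b hab hb
    simp only [hG, hgf]
    apply e.strictMono
    have : min a (m - 1) < min b (m - 1) := by
      rw [min_eq_left (by omega), min_eq_left hb]; exact hab
    simpa using this
  have hne : ∀ a b : ℕ, a < b → b ≤ m - 1 → G a ≠ G b := by
    intro a b hab hb heq
    have := hstrict a b hab hb
    rw [heq] at this
    exact lt_irrefl _ this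
  refine ⟨G i, hGS i, G (i + 1), hGS _, G (i + 2), hGS _, hne _ _ (by omega) (by omega),
    hne _ _ (by omega) (by omega), hne _ _ (by omega) (by omega), ?_⟩
  have h01 := hGmono (show i ≤ i + 1 by omega)
  have h12 := hGmono (show i + 1 ≤ i + 2 by omega)
  have hdet := det_le_box (a := (G (i + 1)).1 - (G i).1) (A := (G (i + 2)).1 - (G i).1)
    (b := (G (i + 1)).2 - (G i).2) (B := (G (i + 2)).2 - (G i).2)
    (sub_nonneg.mpr h01.1) (sub_le_sub_right h12.1 _) (sub_nonneg.mpr h01.2)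
    (sub_le_sub_right h12.2 _)
  have hcast : ((m - 2 : ℕ) : ℝ) = (m : ℝ) - 2 := by
    rw [Nat.cast_sub (by omega)]; norm_num
  rw [hcast] at hbox
  have hbox' : ((G (i + 2)).1 - (G i).1) * ((G (i + 2)).2 - (G i).2) ≤ 4 / ((m : ℝ) - 2) ^ 2 :=
    hbox
  calc |((G (i + 1)).1 - (G i).1) * ((G (i + 2)).2 - (G i).2)
        - ((G (i + 2)).1 - (G i).1) * ((G (i + 1)).2 - (G i).2)| / 2
      ≤ (4 / ((m : ℝ) - 2) ^ 2) / 2 := by
        apply div_le_div_of_nonneg_right (hdet.trans hbox') (by norm_num)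
    _ = 2 / ((m : ℝ) - 2) ^ 2 := by ring

/-- Same statement for chains of the order `x` nondecreasing, `y` nonincreasing. -/
lemma antichain_small_triangle (S : Finset (ℝ × ℝ))
    (hS : ∀ p ∈ S, 0 ≤ p.1 ∧ p.1 ≤ 1 ∧ 0 ≤ p.2 ∧ p.2 ≤ 1)
    (hch : IsChain (fun p q : ℝ × ℝ => p.1 ≤ q.1 ∧ q.2 ≤ p.2) (S : Set (ℝ × ℝ)))
    (hm : 3 ≤ S.card) :
    ∃ p ∈ S, ∃ q ∈ S, ∃ r ∈ S, p ≠ q ∧ q ≠ r ∧ p ≠ r ∧
      |(q.1 - p.1) * (r.2 - p.2) - (r.1 - p.1) * (q.2 - p.2)| / 2
        ≤ 2 / ((S.card : ℝ) - 2) ^ 2 := by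
  classical
  set φ : ℝ × ℝ → ℝ × ℝ := fun p => (p.1, 1 - p.2) with hφ
  have hφinj : Function.Injective φ := by
    intro p q hpq
    simp only [hφ, Prod.mk.injEq] at hpq
    exact Prod.ext hpq.1 (by linarith [hpq.2])
  have hcard : (S.image φ).card = S.card := Finset.card_image_of_injective S hφinj
  have hS' : ∀ p ∈ S.image φ, 0 ≤ p.1 ∧ p.1 ≤ 1 ∧ 0 ≤ p.2 ∧ p.2 ≤ 1 := by
    intro p hp
    rcases Finset.mem_image.mp hp with ⟨a, ha, rfl⟩
    have := hS a ha
    simp only [hφ]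
    refine ⟨this.1, this.2.1, by linarith [this.2.2.2], by linarith [this.2.2.1]⟩
  have hch' : IsChain (· ≤ ·) ((S.image φ : Finset (ℝ × ℝ)) : Set (ℝ × ℝ)) := by
    intro p hp q hq hne
    rcases Finset.mem_image.mp (Finset.mem_coe.mp hp) with ⟨a, ha, rfl⟩
    rcases Finset.mem_image.mp (Finset.mem_coe.mp hq) with ⟨b, hb, rfl⟩
    have hab : a ≠ b := fun h => hne (by rw [h])
    rcases hch ha hb hab with h | h
    · left
      exact ⟨h.1, by simp only [hφ]; linarith [h.2]⟩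
    · right
      exact ⟨h.1, by simp only [hφ]; linarith [h.2]⟩
  obtain ⟨p, hp, q, hq, r, hr, hpq, hqr, hpr, hb⟩ :=
    chain_small_triangle (S.image φ) hS' hch' (by rw [hcard]; exact hm)
  rcases Finset.mem_image.mp hp with ⟨a, ha, rfl⟩
  rcases Finset.mem_image.mp hq with ⟨b, hb', rfl⟩
  rcases Finset.mem_image.mp hr with ⟨c, hc, rfl⟩
  refine ⟨a, ha, b, hb', c, hc, fun h => hpq (by rw [h]), fun h => hqr (by rw [h]),
    fun h => hpr (by rw [h]), ?_⟩
  rw [hcard] at hb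
  have hdet : (b.1 - a.1) * (c.2 - a.2) - (c.1 - a.1) * (b.2 - a.2)
      = -(((φ b).1 - (φ a).1) * ((φ c).2 - (φ a).2) - ((φ c).1 - (φ a).1) * ((φ b).2 - (φ a).2)) := by
    simp only [hφ]; ring
  rw [hdet, abs_neg]
  exact hb

/-- If a finite subset of the unit square with `n` points is covered by `k` monotone chains and
`n > 2 k`, it contains a triangle of area at most `2 k ^ 2 / (n - 2 k) ^ 2`. -/
theorem mono_cover_small_triangle (k : ℕ) (C : Fin k → Set (ℝ × ℝ)) (P : Finset (ℝ × ℝ))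
    (hP : ∀ p ∈ P, 0 ≤ p.1 ∧ p.1 ≤ 1 ∧ 0 ≤ p.2 ∧ p.2 ≤ 1)
    (hC : ∀ i, IsChain (· ≤ ·) (C i) ∨
      IsChain (fun p q : ℝ × ℝ => p.1 ≤ q.1 ∧ q.2 ≤ p.2) (C i))
    (hcov : (P : Set (ℝ × ℝ)) ⊆ ⋃ i, C i)
    (hn : 2 * k < P.card) :
    ∃ p ∈ P, ∃ q ∈ P, ∃ r ∈ P, p ≠ q ∧ q ≠ r ∧ p ≠ r ∧
      |(q.1 - p.1) * (r.2 - p.2) - (r.1 - p.1) * (q.2 - p.2)| / 2
        ≤ 2 * (k : ℝ) ^ 2 / ((P.card : ℝ) - 2 * k) ^ 2 := by
  classical
  have hPne : P.Nonempty := Finset.card_pos.mp (by omega)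
  have hk : 0 < k := by
    rcases Nat.eq_zero_or_pos k with h0 | h0
    · exfalso
      obtain ⟨p, hp⟩ := hPne
      have := hcov (Finset.mem_coe.mpr hp)
      rcases Set.mem_iUnion.mp this with ⟨i, _⟩
      subst h0
      exact i.elim0
    · exact h0
  have : Nonempty (Fin k) := ⟨⟨0, hk⟩⟩
  have hex : ∀ p : ℝ × ℝ, ∃ i : Fin k, p ∈ P → p ∈ C i := by
    intro p
    by_cases hp : p ∈ P
    · rcases Set.mem_iUnion.mp (hcov (Finset.mem_coe.mpr hp)) with ⟨i, hi⟩
      exact ⟨i, fun _ => hi⟩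
    · exact ⟨⟨0, hk⟩, fun h => absurd h hp⟩
  choose c hc using hex
  have hkR : (0 : ℝ) < k := by exact_mod_cast hk
  obtain ⟨i, -, hi⟩ := Finset.exists_le_card_fiber_of_nsmul_le_card_of_maps_to
    (s := P) (t := (Finset.univ : Finset (Fin k))) (f := c) (b := (P.card : ℝ) / k)
    (fun a _ => Finset.mem_univ _) Finset.univ_nonempty
    (by rw [Finset.card_univ, Fintype.card_fin, nsmul_eq_mul]; field_simp; exact le_rfl)
  set S := P.filter (fun x => c x = i) with hSdef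
  have hSP : S ⊆ P := Finset.filter_subset _ _
  have hSC : (S : Set (ℝ × ℝ)) ⊆ C i := by
    intro p hp
    have hp' := Finset.mem_filter.mp (Finset.mem_coe.mp hp)
    have := hc p hp'.1
    rw [hp'.2] at this
    exact this
  have hnR : (2 : ℝ) * k < P.card := by exact_mod_cast hn
  have hmR : (2 : ℝ) < S.card := by
    have : (2 : ℝ) < (P.card : ℝ) / k := by
      rw [lt_div_iff₀ hkR]; exact hnR
    exact lt_of_lt_of_le this hi
  have hm : 3 ≤ S.card := by
    have : 2 < S.card := by exact_mod_cast hmR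
    omega
  have hSunit : ∀ p ∈ S, 0 ≤ p.1 ∧ p.1 ≤ 1 ∧ 0 ≤ p.2 ∧ p.2 ≤ 1 := fun p hp => hP p (hSP hp)
  have hbound : 2 / ((S.card : ℝ) - 2) ^ 2 ≤ 2 * (k : ℝ) ^ 2 / ((P.card : ℝ) - 2 * k) ^ 2 := by
    have h1 : ((P.card : ℝ) - 2 * k) / k ≤ (S.card : ℝ) - 2 := by
      have : ((P.card : ℝ) - 2 * k) / k = (P.card : ℝ) / k - 2 := by field_simp
      rw [this]; linarith
    have h2 : 0 < ((P.card : ℝ) - 2 * k) / k := div_pos (by linarith) hkR
    have h3 : (((P.card : ℝ) - 2 * k) / k) ^ 2 ≤ ((S.card : ℝ) - 2) ^ 2 :=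
      pow_le_pow_left₀ h2.le h1 2
    have h4 : 2 * (k : ℝ) ^ 2 / ((P.card : ℝ) - 2 * k) ^ 2
        = 2 / (((P.card : ℝ) - 2 * k) / k) ^ 2 := by
      have hne : (P.card : ℝ) - 2 * k ≠ 0 := by linarith
      field_simp
    rw [h4]
    exact div_le_div_of_nonneg_left (by norm_num) (by positivity) h3
  rcases hC i with hch | hch
  · obtain ⟨p, hp, q, hq, r, hr, h1, h2, h3, h4⟩ :=
      chain_small_triangle S hSunit (hch.mono hSC) hm
    exact ⟨p, hSP hp, q, hSP hq, r, hSP hr, h1, h2, h3, h4.trans hbound⟩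
  · obtain ⟨p, hp, q, hq, r, hr, h1, h2, h3, h4⟩ :=
      antichain_small_triangle S hSunit (hch.mono hSC) hm
    exact ⟨p, hSP hp, q, hSP hq, r, hSP hr, h1, h2, h3, h4.trans hbound⟩

end Vale.Agent.Lib.P036
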